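import Vale.Agent.P124.Main

/-!
For separable Banach spaces, a Lipschitz factorisation of the identity of `X` through `Y` gives
approximation of the identity by convex combinations of bounded linear factorisations through `Y`;
in particular the approximation property is invariant under Lipschitz isomorphism.
-/

noncomputable section

open Vale.Agent.P124
open scoped NNReal

namespace Vale.Agent.Results.P124.LipschitzAP

universe u w

theorem result :
    ∀ (X : Type u) (Y : Type w) [NormedAddCommGroup X] [NormedSpace ℝ X] [CompleteSpace X]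
      [TopologicalSpace.SeparableSpace X] [NormedAddCommGroup Y] [NormedSpace ℝ Y] [CompleteSpace Y]
      [TopologicalSpace.SeparableSpace Y],
      (∀ (L : ℝ≥0) (f : X → Y) (g : Y → X), LipschitzWith L f → LipschitzWith L g →
        (∀ x, g (f x) = x) →
        (∀ (s : Finset X) (ε : ℝ), 0 < ε →
          ∃ S ∈ convexHull ℝ {T : X →L[ℝ] X | ∃ (A : Y →L[ℝ] X) (B : X →L[ℝ] Y),
              ‖A‖ ≤ L ∧ ‖B‖ ≤ L ∧ T = A.comp B},
            ∀ v ∈ s, ‖S v - v‖ ≤ ε) ∧
        (HasAP Y → HasAP X)) ∧
      ∀ (L : ℝ≥0) (e : X ≃ Y), LipschitzWith L e → LipschitzWith L e.symm →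
        (HasAP X ↔ HasAP Y) := by
  intro X Y _ _ _ _ _ _ _ _
  refine ⟨fun L f g hf hg hgf =>
    ⟨fun s ε hε => exists_average hf hg hgf s hε, HasAP.of_lipschitz hf hg hgf⟩,
    fun L e he he' => ⟨HasAP.of_lipschitz he' he e.apply_symm_apply,
      HasAP.of_lipschitz he he' e.symm_apply_apply⟩⟩

end Vale.Agent.Results.P124.LipschitzAP
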